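import Vale.Agent.P141.H115g.WG1
import Vale.Agent.P141.H550.Pair
import Mathlib.Data.Int.Log

/-!
# P141, line W, weight `W_g`: levels and the sixth root Hölder sum

* `sum_six`: Hölder for finite sums, six exponents `1/6`;
* `sum_pow_natAbs`: `∑ (3/4)^|m| ≤ 7` over a finite set of integers;
* `i1 r k`: the indicator of the level `4^k ≤ r < 4^(k+1)`, `i1_sum`: the levels add up;
* `class_sum`: the double sum over two families of levels of the sixth roots.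
-/

namespace Vale.Agent.P141.H438

noncomputable section

open scoped BigOperators
open Finset
open Vale.Agent.P141.PL.H315 (avg avg_nonneg)

/-- **Hölder for finite sums, six exponents `1/6`** -/
theorem sum_six {ι : Type*} (s : Finset ι) (f : Fin 6 → ι → ℝ)
    (hf : ∀ j, ∀ i ∈ s, 0 ≤ f j i) :
    ∑ i ∈ s, ∏ j, f j i ^ (1 / 6 : ℝ) ≤ ∏ j, (∑ i ∈ s, f j i) ^ (1 / 6 : ℝ) := by
  rcases s.eq_empty_or_nonempty with rfl | hs
  · simp only [sum_empty]
    exact prod_nonneg fun j _ => Real.rpow_nonneg le_rfl _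
  have hc : (0 : ℝ) < s.card := by exact_mod_cast hs.card_pos
  have h := H115g.avg_prod_rpow_le s (fun _ : Fin 6 => (1 / 6 : ℝ)) (fun _ => by norm_num)
    (by simp) f hf
  unfold avg at h
  rw [inv_mul_le_iff₀ hc] at h
  refine h.trans (le_of_eq ?_)
  exact H115g.card_mul_six hc (fun j => ∑ i ∈ s, f j i) fun j => sum_nonneg (hf j)

/-- geometric sums over finite sets of integers -/
theorem sum_pow_natAbs (s : Finset ℤ) : ∑ m ∈ s, (3 / 4 : ℝ) ^ m.natAbs ≤ 7 := by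
  classical
  have hs : Summable fun n : ℕ => (3 / 4 : ℝ) ^ n :=
    summable_geometric_of_lt_one (by norm_num) (by norm_num)
  have ht : ∑' n : ℕ, (3 / 4 : ℝ) ^ n = 4 := by
    rw [tsum_geometric_of_lt_one (by norm_num) (by norm_num)]; norm_num
  have h1 : ∑ m ∈ s.filter (fun m => 0 ≤ m), (3 / 4 : ℝ) ^ m.natAbs ≤ 4 := by
    have e : ∑ m ∈ s.filter (fun m => 0 ≤ m), (3 / 4 : ℝ) ^ m.natAbs =
        ∑ n ∈ (s.filter (fun m => 0 ≤ m)).image Int.natAbs, (3 / 4 : ℝ) ^ n := by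
      rw [sum_image]
      intro a ha b hb hab
      have ha' := (mem_filter.1 ha).2
      have hb' := (mem_filter.1 hb).2
      omega
    rw [e]
    exact (hs.sum_le_tsum _ fun _ _ => by positivity).trans_eq ht
  have h2 : ∑ m ∈ s.filter (fun m => ¬ 0 ≤ m), (3 / 4 : ℝ) ^ m.natAbs ≤ 3 := by
    have e : ∑ m ∈ s.filter (fun m => ¬ 0 ≤ m), (3 / 4 : ℝ) ^ m.natAbs =
        (3 / 4) * ∑ n ∈ (s.filter (fun m => ¬ 0 ≤ m)).image (fun m => m.natAbs - 1),
          (3 / 4 : ℝ) ^ n := by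
      rw [sum_image, mul_sum]
      · refine sum_congr rfl fun m hm => ?_
        have hm' := (mem_filter.1 hm).2
        obtain ⟨n, hn⟩ : ∃ n, m.natAbs = n + 1 := ⟨m.natAbs - 1, by omega⟩
        rw [hn, Nat.add_sub_cancel, pow_succ]; ring
      · intro a ha b hb hab
        have ha' := (mem_filter.1 ha).2
        have hb' := (mem_filter.1 hb).2
        simp only at hab
        omega
    rw [e]
    have h3 : ∑ n ∈ (s.filter (fun m => ¬ 0 ≤ m)).image (fun m => m.natAbs - 1),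
        (3 / 4 : ℝ) ^ n ≤ 4 := by
      exact (hs.sum_le_tsum _ fun _ _ => by positivity).trans_eq ht
    linarith
  rw [← sum_filter_add_sum_filter_not s (fun m => 0 ≤ m)]
  linarith

/-- the indicator of the level `k` of a nonnegative number -/
def i1 (r : ℝ) (k : ℤ) : ℝ := if 0 < r ∧ Int.log 4 r = k then 1 else 0

theorem i1_nonneg (r : ℝ) (k : ℤ) : 0 ≤ i1 r k := by unfold i1; split_ifs <;> norm_num

theorem i1_sq (r : ℝ) (k : ℤ) : i1 r k ^ 2 = i1 r k := by unfold i1; split_ifs <;> norm_num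

theorem i1_le_one (r : ℝ) (k : ℤ) : i1 r k ≤ 1 := by unfold i1; split_ifs <;> norm_num

/-- lower end of the level -/
theorem i1_lower (r : ℝ) (k : ℤ) : i1 r k * (4 : ℝ) ^ k ≤ i1 r k * r := by
  unfold i1
  split_ifs with h
  · rw [one_mul, one_mul, ← h.2]
    exact_mod_cast Int.zpow_log_le_self (b := 4) (by norm_num) h.1
  · simp

/-- upper end of the level -/
theorem i1_upper (r : ℝ) (k : ℤ) : i1 r k * r ≤ i1 r k * (4 * (4 : ℝ) ^ k) := by
  unfold i1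
  split_ifs with h
  · rw [one_mul, one_mul, ← h.2]
    have h1 := (Int.lt_zpow_succ_log_self (b := 4) (by norm_num) r).le
    rw [zpow_add₀ (by norm_num), zpow_one] at h1
    push_cast at h1
    linarith
  · simp

/-- the levels add up -/
theorem i1_sum {r : ℝ} (hr : 0 < r) {s : Finset ℤ} (hs : Int.log 4 r ∈ s) :
    ∑ k ∈ s, i1 r k = 1 := by
  classical
  unfold i1
  simp only [hr, true_and]
  rw [sum_ite_eq]
  simp [hs]

theorem i1_sum_le (r : ℝ) (s : Finset ℤ) : ∑ k ∈ s, i1 r k ≤ 1 := by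
  classical
  by_cases hr : 0 < r
  · unfold i1
    simp only [hr, true_and]
    rw [sum_ite_eq]
    split_ifs <;> norm_num
  · unfold i1
    simp [hr]

theorem i1_zero (k : ℤ) : i1 0 k = 0 := by unfold i1; simp

/-- the geometric factor of a pair of levels -/
def lam (k l : ℤ) : ℝ := 2 * (3 / 4 : ℝ) ^ (k - l).natAbs

theorem lam_nonneg (k l : ℤ) : 0 ≤ lam k l := by unfold lam; positivity

theorem quarter_le (n : ℕ) : (4 : ℝ)⁻¹ ^ n ≤ ((3 / 4 : ℝ) ^ n) ^ 4 := by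
  rw [← pow_mul, mul_comm n 4, pow_mul]
  exact pow_le_pow_left₀ (by norm_num) (by norm_num) n

/-- the product of the three geometric factors -/
theorem geo_le (k l : ℤ) {a b : ℝ} (ha1 : a ≤ 1)
    (ha : a ≤ 4 * (4 : ℝ) ^ k * ((4 : ℝ) ^ l)⁻¹) (hb0 : 0 ≤ b) (hb1 : b ≤ 4 * (4 : ℝ) ^ k)
    (hb2 : b ≤ 4 * (4 : ℝ) ^ l) : ((4 : ℝ) ^ k)⁻¹ * a * b ≤ lam k l ^ 4 := by
  have hk : (0 : ℝ) < (4 : ℝ) ^ k := by positivity
  have hl : (0 : ℝ) < (4 : ℝ) ^ l := by positivity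
  have e4 : lam k l ^ 4 = 16 * ((3 / 4 : ℝ) ^ (k - l).natAbs) ^ 4 := by unfold lam; ring
  rw [e4]
  rcases le_total k l with h | h
  · -- `k ≤ l`
    obtain ⟨n, hn⟩ : ∃ n : ℕ, l = k + n := ⟨(l - k).toNat, by omega⟩
    have hna : (k - l).natAbs = n := by omega
    rw [hna]
    have h1 : ((4 : ℝ) ^ k)⁻¹ * a * b ≤ ((4 : ℝ) ^ k)⁻¹ * (4 * (4 : ℝ) ^ k * ((4 : ℝ) ^ l)⁻¹) *
        (4 * (4 : ℝ) ^ k) := by
      refine mul_le_mul (mul_le_mul_of_nonneg_left ha (by positivity)) hb1 hb0 (by positivity)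
    refine h1.trans ?_
    have h2 : ((4 : ℝ) ^ k)⁻¹ * (4 * (4 : ℝ) ^ k * ((4 : ℝ) ^ l)⁻¹) * (4 * (4 : ℝ) ^ k) =
        16 * (4 : ℝ)⁻¹ ^ n := by
      rw [hn, zpow_add₀ (by norm_num : (4 : ℝ) ≠ 0), zpow_natCast, inv_pow]
      field_simp
      norm_num
    rw [h2]
    exact mul_le_mul_of_nonneg_left (quarter_le n) (by norm_num)
  · obtain ⟨n, hn⟩ : ∃ n : ℕ, k = l + n := ⟨(k - l).toNat, by omega⟩
    have hna : (k - l).natAbs = n := by omega
    rw [hna]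
    have h1 : ((4 : ℝ) ^ k)⁻¹ * a * b ≤ ((4 : ℝ) ^ k)⁻¹ * 1 * (4 * (4 : ℝ) ^ l) := by
      refine mul_le_mul (mul_le_mul_of_nonneg_left ha1 (by positivity)) hb2 hb0 (by positivity)
    refine h1.trans ?_
    have h2 : ((4 : ℝ) ^ k)⁻¹ * 1 * (4 * (4 : ℝ) ^ l) = 4 * (4 : ℝ)⁻¹ ^ n := by
      rw [hn, zpow_add₀ (by norm_num : (4 : ℝ) ≠ 0), zpow_natCast, inv_pow]
      field_simp
    rw [h2]
    have h3 := quarter_le n
    have h4 : (0 : ℝ) ≤ ((3 / 4 : ℝ) ^ n) ^ 4 := by positivity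
    linarith

theorem sum_lam_left (s : Finset ℤ) (l : ℤ) : ∑ k ∈ s, lam k l ≤ 14 := by
  classical
  unfold lam
  rw [← mul_sum]
  have e : ∑ k ∈ s, (3 / 4 : ℝ) ^ (k - l).natAbs =
      ∑ m ∈ s.image (fun k => k - l), (3 / 4 : ℝ) ^ m.natAbs := by
    rw [sum_image]
    intro a _ b _ hab
    simp only at hab
    omega
  rw [e]
  linarith [sum_pow_natAbs (s.image fun k => k - l)]

theorem sum_lam_right (s : Finset ℤ) (k : ℤ) : ∑ l ∈ s, lam k l ≤ 14 := by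
  have h : ∀ l, lam k l = lam l k := fun l => by
    unfold lam
    rw [show (k - l).natAbs = (l - k).natAbs by omega]
  simp only [h]
  exact sum_lam_left s k

/-- **the double sum over two families of levels** -/
theorem class_sum (s t : Finset ℤ) {q b g : ℤ → ℝ} {v w : ℤ → ℤ → ℝ}
    (hq : ∀ k, 0 ≤ q k) (hb : ∀ l, 0 ≤ b l) (hg : ∀ l, 0 ≤ g l) (hv : ∀ k l, 0 ≤ v k l)
    (hw : ∀ k l, 0 ≤ w k l) {Q B Gs V W : ℝ} (hQ : ∑ k ∈ s, q k ≤ Q) (hB : ∑ l ∈ t, b l ≤ B)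
    (hG : ∑ l ∈ t, g l ≤ Gs) (hV : ∑ k ∈ s, ∑ l ∈ t, v k l ≤ V)
    (hW : ∑ k ∈ s, ∑ l ∈ t, w k l ≤ W) :
    ∑ k ∈ s, ∑ l ∈ t, (lam k l ^ 4 * (q k * b l * g l * g l * v k l * w k l)) ^ (1 / 6 : ℝ) ≤
      6 * (Q * B * Gs * Gs * V * W) ^ (1 / 6 : ℝ) := by
  classical
  have hl := lam_nonneg
  let f : Fin 6 → ℤ × ℤ → ℝ := ![fun p => lam p.1 p.2 * q p.1, fun p => lam p.1 p.2 * b p.2,
    fun p => lam p.1 p.2 * g p.2, fun p => lam p.1 p.2 * g p.2, fun p => v p.1 p.2,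
    fun p => w p.1 p.2]
  have hf : ∀ j, ∀ i ∈ s ×ˢ t, 0 ≤ f j i := by
    intro j i _
    fin_cases j
    · exact mul_nonneg (hl _ _) (hq _)
    · exact mul_nonneg (hl _ _) (hb _)
    · exact mul_nonneg (hl _ _) (hg _)
    · exact mul_nonneg (hl _ _) (hg _)
    · exact hv _ _
    · exact hw _ _
  have h := sum_six (s ×ˢ t) f hf
  have hQ0 : 0 ≤ Q := (sum_nonneg fun k _ => hq k).trans hQ
  have hB0 : 0 ≤ B := (sum_nonneg fun k _ => hb k).trans hB
  have hG0 : 0 ≤ Gs := (sum_nonneg fun k _ => hg k).trans hG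
  have hV0 : 0 ≤ V := (sum_nonneg fun k _ => sum_nonneg fun l _ => hv k l).trans hV
  have hW0 : 0 ≤ W := (sum_nonneg fun k _ => sum_nonneg fun l _ => hw k l).trans hW
  have e1 : ∑ k ∈ s, ∑ l ∈ t, (lam k l ^ 4 * (q k * b l * g l * g l * v k l * w k l)) ^
      (1 / 6 : ℝ) = ∑ i ∈ s ×ˢ t, ∏ j, f j i ^ (1 / 6 : ℝ) := by
    rw [sum_product]
    refine sum_congr rfl fun k _ => sum_congr rfl fun l _ => ?_
    rw [Real.finsetProd_rpow _ _ (fun j hj => ?_)]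
    · congr 1
      simp only [f, Fin.prod_univ_succ, Fin.prod_univ_zero]
      simp only [Matrix.cons_val_zero, Matrix.cons_val_succ]
      ring
    · fin_cases j
      · exact mul_nonneg (hl _ _) (hq _)
      · exact mul_nonneg (hl _ _) (hb _)
      · exact mul_nonneg (hl _ _) (hg _)
      · exact mul_nonneg (hl _ _) (hg _)
      · exact hv _ _
      · exact hw _ _
  rw [e1]
  refine h.trans ?_
  have s0 : ∑ i ∈ s ×ˢ t, f 0 i ≤ 14 * Q := by
    show ∑ i ∈ s ×ˢ t, lam i.1 i.2 * q i.1 ≤ _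
    rw [sum_product]
    have : ∀ k ∈ s, ∑ l ∈ t, lam k l * q k ≤ 14 * q k := fun k _ => by
      rw [← sum_mul]
      exact mul_le_mul_of_nonneg_right (sum_lam_right t k) (hq k)
    refine (sum_le_sum this).trans ?_
    rw [← mul_sum]
    linarith
  have s1 : ∀ c : ℤ → ℝ, (∀ l, 0 ≤ c l) → ∑ i ∈ s ×ˢ t, lam i.1 i.2 * c i.2 ≤
      14 * ∑ l ∈ t, c l := by
    intro c hc
    rw [sum_product, sum_comm, mul_sum]
    refine sum_le_sum fun l _ => ?_
    show ∑ k ∈ s, lam k l * c l ≤ _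
    rw [← sum_mul]
    exact mul_le_mul_of_nonneg_right (sum_lam_left s l) (hc l)
  have hs : ∀ j, ∑ i ∈ s ×ˢ t, f j i ≤
      (![14 * Q, 14 * B, 14 * Gs, 14 * Gs, V, W] : Fin 6 → ℝ) j := by
    intro j
    fin_cases j
    · exact s0
    · exact (s1 b hb).trans (by show _ ≤ 14 * B; linarith)
    · exact (s1 g hg).trans (by show _ ≤ 14 * Gs; linarith)
    · exact (s1 g hg).trans (by show _ ≤ 14 * Gs; linarith)
    · show ∑ i ∈ s ×ˢ t, v i.1 i.2 ≤ V
      rw [sum_product]; exact hV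
    · show ∑ i ∈ s ×ˢ t, w i.1 i.2 ≤ W
      rw [sum_product]; exact hW
  have h2 : ∏ j, (∑ i ∈ s ×ˢ t, f j i) ^ (1 / 6 : ℝ) ≤
      ∏ j, ((![14 * Q, 14 * B, 14 * Gs, 14 * Gs, V, W] : Fin 6 → ℝ) j) ^ (1 / 6 : ℝ) := by
    refine prod_le_prod (fun j _ => Real.rpow_nonneg (sum_nonneg (hf j)) _) fun j _ => ?_
    exact Real.rpow_le_rpow (sum_nonneg (hf j)) (hs j) (by norm_num)
  refine h2.trans ?_
  rw [Real.finsetProd_rpow]
  · have e2 : ∏ j, (![14 * Q, 14 * B, 14 * Gs, 14 * Gs, V, W] : Fin 6 → ℝ) j =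
        14 ^ 4 * (Q * B * Gs * Gs * V * W) := by
      simp only [Fin.prod_univ_succ, Fin.prod_univ_zero, Matrix.cons_val_zero,
        Matrix.cons_val_succ]
      ring
    rw [e2, Real.mul_rpow (by norm_num) (by positivity)]
    refine mul_le_mul_of_nonneg_right ?_ (by positivity)
    have h6 : ((14 : ℝ) ^ 4) ≤ 6 ^ 6 := by norm_num
    calc ((14 : ℝ) ^ 4) ^ (1 / 6 : ℝ) ≤ ((6 : ℝ) ^ 6) ^ (1 / 6 : ℝ) :=
          Real.rpow_le_rpow (by norm_num) h6 (by norm_num)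
      _ = 6 := by
          rw [← Real.rpow_natCast, ← Real.rpow_mul (by norm_num)]
          norm_num
  · intro j _
    fin_cases j
    · show 0 ≤ 14 * Q; positivity
    · show 0 ≤ 14 * B; positivity
    · show 0 ≤ 14 * Gs; positivity
    · show 0 ≤ 14 * Gs; positivity
    · exact hV0
    · exact hW0

end

end Vale.Agent.P141.H438
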