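import Vale.Agent.P141.H438.Lev
import Vale.Agent.P141.H944.BoxG
import Vale.Agent.P141.H204.Vec

/-!
# P141, line W, weight `W_g`: one row of the Gram form, and the fourth moment

`G` is `d`-uniform on the box with the weight `W_g` (`UnifG`), its line averages are at most `e`.

* `one_row`: one application to all pairs of levels;
* `gram_row`: for every row `c` of a vector valued gauge the energy of the Gram form
  `avg_x avg_z (avg_y (∑_l u_l(x,y) u_l(c,y)) G(x,y,z) G(c,y,z))²` is at most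
  `36 d² e (R q² r)^(1/3)`, `q = avg_y P(y) s(c,y)`, `r = avg_y s(c,y)`, `s = ∑_l u_l²`;
* `mo4v_G`: the fourth Schatten moment, `mo4v_G_sup`: with the maximum of the column norms,
  `mo4_G`: one label, `mo4t_G`, `mo4t_G_sup`: labels on the first vertex.
-/

namespace Vale.Agent.P141.H438

noncomputable section

open scoped BigOperators
open Finset
open Vale.Agent.P141.PL.H315 (avg avg_nonneg)
open Vale.Agent.P141.H550 (avg_comm avg_const avg_congr avg_mono avg_mul_left avg_mul_right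
  avg_mul_sq_le)
open Vale.Agent.P141.H769 (sl g2 mo4)
open Vale.Agent.P141.H834 (LineB)
open Vale.Agent.P141.H944 (UnifG unifG_test unifG_213)
open Vale.Agent.P141.H204 (mo4v mo4t)

theorem sum_avg {X ι : Type*} (s : Finset ι) (Q : Finset X) (f : ι → X → ℝ) :
    ∑ i ∈ s, avg Q (f i) = avg Q fun x => ∑ i ∈ s, f i x := by
  unfold avg
  rw [← mul_sum, sum_comm]

/-- a nonnegative function with average `≤ 0` vanishes -/
theorem eq_zero_of_avg {X : Type*} {Q : Finset X} {f : X → ℝ} (hf : ∀ x ∈ Q, 0 ≤ f x)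
    (h : avg Q f ≤ 0) {x : X} (hx : x ∈ Q) : f x = 0 := by
  have hc : (0 : ℝ) < Q.card := by exact_mod_cast card_pos.2 ⟨x, hx⟩
  unfold avg at h
  have h1 : ∑ y ∈ Q, f y ≤ 0 := by
    rw [inv_mul_eq_div, div_le_iff₀ hc, zero_mul] at h
    exact h
  exact le_antisymm ((single_le_sum hf hx).trans h1) (hf x hx)

section row

variable {A B C : Finset ℤ} {G : ℤ × ℤ × ℤ → ℝ} {d e R : ℝ} {σ P : ℤ → ℝ}
  {p s Kx g : ℤ → ℤ → ℝ}

/-- the energy of a line of the second factor -/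
def hh (B : Finset ℤ) (σ : ℤ → ℝ) (g : ℤ → ℤ → ℝ) (z : ℤ) : ℝ := avg B fun y => σ y * g y z ^ 2

/-- the identity behind the decomposition into levels -/
theorem split_levels (he : 0 < e) (hσ : ∀ y ∈ B, 0 ≤ σ y)
    (hs : ∀ x ∈ A, ∀ y ∈ B, p x y ^ 2 ≤ s x y * σ y) {S T : Finset ℤ}
    (hS : ∀ y ∈ B, Int.log 4 (σ y) ∈ S) (hT : ∀ z ∈ C, Int.log 4 (hh B σ g z / e) ∈ T)
    {x y z : ℤ} (hx : x ∈ A) (hy : y ∈ B) (hz : z ∈ C) :
    p x y * Kx x z * g y z = ∑ k ∈ S, ∑ K ∈ T, (i1 (σ y) k * (p x y / √(σ y))) *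
      (i1 (hh B σ g z / e) K * Kx x z) *
      (i1 (σ y) k * i1 (hh B σ g z / e) K * (√(σ y) * g y z)) := by
  have e1 : ∀ k K : ℤ, (i1 (σ y) k * (p x y / √(σ y))) * (i1 (hh B σ g z / e) K * Kx x z) *
      (i1 (σ y) k * i1 (hh B σ g z / e) K * (√(σ y) * g y z)) =
      (i1 (σ y) k * (p x y / √(σ y) * √(σ y))) * (i1 (hh B σ g z / e) K * (Kx x z * g y z)) := by
    intro k K
    have a := i1_sq (σ y) k
    have b := i1_sq (hh B σ g z / e) K
    calc _ = (i1 (σ y) k ^ 2 * (p x y / √(σ y) * √(σ y))) *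
          (i1 (hh B σ g z / e) K ^ 2 * (Kx x z * g y z)) := by ring
      _ = _ := by rw [a, b]
  simp only [e1]
  rw [← sum_mul_sum, ← sum_mul, ← sum_mul]
  rcases (hσ y hy).eq_or_lt with h0 | h0
  · have hp : p x y = 0 := by
      have := hs x hx y hy
      rw [← h0, mul_zero] at this
      exact pow_eq_zero_iff (two_ne_zero) |>.1 (le_antisymm this (sq_nonneg _))
    rw [hp]; simp
  · have hq : √(σ y) ≠ 0 := (Real.sqrt_pos.2 h0).ne'
    rw [i1_sum h0 (hS y hy), div_mul_cancel₀ _ hq]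
    rcases le_or_gt (hh B σ g z) 0 with h1 | h1
    · have hg : g y z = 0 := by
        have := eq_zero_of_avg (fun y hy => mul_nonneg (hσ y hy) (sq_nonneg (g y z))) h1 hy
        rcases mul_eq_zero.1 this with h | h
        · exact absurd h h0.ne'
        · exact pow_eq_zero_iff (two_ne_zero) |>.1 h
      rw [hg]; ring
    · rw [i1_sum (div_pos h1 he) (hT z hz)]
      ring

/-- **one row, all pairs of levels** -/
theorem one_row (hd : 0 ≤ d) (he : 0 < e) (hA : A.Nonempty) (hB : B.Nonempty) (hC : C.Nonempty)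
    (hU : UnifG d A B C G) (hσ : ∀ y ∈ B, 0 ≤ σ y) (hP0 : ∀ y ∈ B, 0 ≤ P y)
    (hp : ∀ y ∈ B, (avg A fun x => p x y ^ 2) ≤ P y * σ y)
    (hs0 : ∀ x ∈ A, ∀ y ∈ B, 0 ≤ s x y)
    (hs : ∀ x ∈ A, ∀ y ∈ B, p x y ^ 2 ≤ s x y * σ y)
    (hR : ∀ x ∈ A, (avg B fun y => s x y) ≤ R)
    (h2 : ∀ z ∈ C, (avg B fun y => g y z ^ 2) ≤ e)
    (h3 : ∀ y ∈ B, (avg C fun z => g y z ^ 2) ≤ e) :
    |avg A fun x => avg B fun y => avg C fun z => G (x, y, z) * (p x y * Kx x z * g y z)| ≤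
      6 * d * ((avg B fun y => P y * σ y) * (e ^ 2 * avg B σ) *
        (avg A fun x => avg C fun z => Kx x z ^ 2) * (avg A fun x => avg C fun z => Kx x z ^ 2) *
        (R * avg A fun x => avg C fun z => Kx x z ^ 2) *
        (e * avg B fun y => P y * σ y)) ^ (1 / 6 : ℝ) := by
  classical
  set S : Finset ℤ := B.image fun y => Int.log 4 (σ y) with hSd
  set T : Finset ℤ := C.image fun z => Int.log 4 (hh B σ g z / e) with hTd
  have hS : ∀ y ∈ B, Int.log 4 (σ y) ∈ S := fun y hy => mem_image_of_mem _ hy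
  have hT : ∀ z ∈ C, Int.log 4 (hh B σ g z / e) ∈ T := fun z hz => mem_image_of_mem _ hz
  have hH0 : ∀ z, 0 ≤ hh B σ g z := fun z =>
    avg_nonneg fun y hy => mul_nonneg (hσ y hy) (sq_nonneg _)
  -- the functions of the levels
  let qk : ℤ → ℝ := fun k => avg B fun y => i1 (σ y) k * (P y * σ y)
  let gK : ℤ → ℝ := fun K => avg C fun z => i1 (hh B σ g z / e) K * avg A fun x => Kx x z ^ 2
  let bK : ℤ → ℝ := fun K => avg C fun z => i1 (hh B σ g z / e) K * hh B σ g z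
  let vv : ℤ → ℤ → ℝ := fun k K => avg A fun x => (avg B fun y => i1 (σ y) k * (p x y ^ 2 / σ y)) *
    avg C fun z => i1 (hh B σ g z / e) K * Kx x z ^ 2
  let ww : ℤ → ℤ → ℝ := fun k K => avg B fun y => (i1 (σ y) k * (P y * σ y)) *
    avg C fun z => i1 (hh B σ g z / e) K * g y z ^ 2
  have hq0 : ∀ k, 0 ≤ qk k := fun k => avg_nonneg fun y hy =>
    mul_nonneg (i1_nonneg _ _) (mul_nonneg (hP0 y hy) (hσ y hy))
  have hg0 : ∀ K, 0 ≤ gK K := fun K => avg_nonneg fun z _ =>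
    mul_nonneg (i1_nonneg _ _) (avg_nonneg fun x _ => sq_nonneg _)
  have hb0 : ∀ K, 0 ≤ bK K := fun K => avg_nonneg fun z _ => mul_nonneg (i1_nonneg _ _) (hH0 z)
  have hpσ : ∀ x ∈ A, ∀ y ∈ B, 0 ≤ p x y ^ 2 / σ y := fun x _ y hy =>
    div_nonneg (sq_nonneg _) (hσ y hy)
  have hpσ' : ∀ x ∈ A, ∀ y ∈ B, p x y ^ 2 / σ y ≤ s x y := by
    intro x hx y hy
    rcases (hσ y hy).eq_or_lt with h0 | h0
    · rw [← h0, div_zero]; exact hs0 x hx y hy
    · rw [div_le_iff₀ h0]; exact hs x hx y hy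
  have hv0 : ∀ k K, 0 ≤ vv k K := fun k K => avg_nonneg fun x hx =>
    mul_nonneg (avg_nonneg fun y hy => mul_nonneg (i1_nonneg _ _) (hpσ x hx y hy))
      (avg_nonneg fun z _ => mul_nonneg (i1_nonneg _ _) (sq_nonneg _))
  have hw0 : ∀ k K, 0 ≤ ww k K := fun k K => avg_nonneg fun y hy =>
    mul_nonneg (mul_nonneg (i1_nonneg _ _) (mul_nonneg (hP0 y hy) (hσ y hy)))
      (avg_nonneg fun z _ => mul_nonneg (i1_nonneg _ _) (sq_nonneg _))
  -- one pair of levels
  have hone : ∀ k K : ℤ, |avg A fun x => avg B fun y => avg C fun z => G (x, y, z) *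
      ((i1 (σ y) k * (p x y / √(σ y))) * (i1 (hh B σ g z / e) K * Kx x z) *
      (i1 (σ y) k * i1 (hh B σ g z / e) K * (√(σ y) * g y z)))| ≤
      d * (lam k K ^ 4 * (qk k * (e * bK K) * gK K * gK K * vv k K * ww k K)) ^ (1 / 6 : ℝ) := by
    intro k K
    have hk : (0 : ℝ) < (4 : ℝ) ^ k := by positivity
    have hK : (0 : ℝ) < (4 : ℝ) ^ K := by positivity
    -- squares of the tests
    have f12 : ∀ x, ∀ y ∈ B, (i1 (σ y) k * (p x y / √(σ y))) ^ 2 =
        i1 (σ y) k * (p x y ^ 2 / σ y) := by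
      intro x y hy
      rw [mul_pow, i1_sq, div_pow, Real.sq_sqrt (hσ y hy)]
    have f13 : ∀ x z, (i1 (hh B σ g z / e) K * Kx x z) ^ 2 =
        i1 (hh B σ g z / e) K * Kx x z ^ 2 := by
      intro x z
      rw [mul_pow, i1_sq]
    have f23 : ∀ y ∈ B, ∀ z, (i1 (σ y) k * i1 (hh B σ g z / e) K * (√(σ y) * g y z)) ^ 2 =
        i1 (hh B σ g z / e) K * (i1 (σ y) k * (σ y * g y z ^ 2)) := by
      intro y hy z
      rw [mul_pow, mul_pow, i1_sq, i1_sq, mul_pow, Real.sq_sqrt (hσ y hy)]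
      ring
    have g12 : ∀ y ∈ B, (avg A fun x => (i1 (σ y) k * (p x y / √(σ y))) ^ 2) ≤
        i1 (σ y) k * P y := by
      intro y hy
      have e1 : (avg A fun x => (i1 (σ y) k * (p x y / √(σ y))) ^ 2) =
          i1 (σ y) k * ((avg A fun x => p x y ^ 2) / σ y) := by
        rw [avg_congr fun x _ => f12 x y hy, avg_mul_left, div_eq_mul_inv, ← avg_mul_right]
        simp only [div_eq_mul_inv]
      rw [e1]
      refine mul_le_mul_of_nonneg_left ?_ (i1_nonneg _ _)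
      rcases (hσ y hy).eq_or_lt with h0 | h0
      · rw [← h0, div_zero]; exact hP0 y hy
      · rw [div_le_iff₀ h0]; exact hp y hy
    have g23 : ∀ z ∈ C, (avg B fun y => i1 (σ y) k * (σ y * g y z ^ 2)) ≤
        4 * (4 : ℝ) ^ k * e := by
      intro z hz
      calc (avg B fun y => i1 (σ y) k * (σ y * g y z ^ 2)) ≤
            avg B fun y => 4 * (4 : ℝ) ^ k * g y z ^ 2 := by
            refine avg_mono fun y hy => ?_
            have h4 := i1_upper (σ y) k
            have h5 := i1_le_one (σ y) k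
            calc i1 (σ y) k * (σ y * g y z ^ 2) = (i1 (σ y) k * σ y) * g y z ^ 2 := by ring
              _ ≤ (i1 (σ y) k * (4 * (4 : ℝ) ^ k)) * g y z ^ 2 :=
                  mul_le_mul_of_nonneg_right h4 (sq_nonneg _)
              _ ≤ (1 * (4 * (4 : ℝ) ^ k)) * g y z ^ 2 := by gcongr
              _ = 4 * (4 : ℝ) ^ k * g y z ^ 2 := by ring
        _ = 4 * (4 : ℝ) ^ k * avg B fun y => g y z ^ 2 := avg_mul_left _ _ _
        _ ≤ 4 * (4 : ℝ) ^ k * e := mul_le_mul_of_nonneg_left (h2 z hz) (by positivity)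
    have g23' : ∀ z, (avg B fun y => i1 (σ y) k * (σ y * g y z ^ 2)) ≤ hh B σ g z := by
      intro z
      refine avg_mono fun y hy => ?_
      have h5 := i1_le_one (σ y) k
      have h6 : 0 ≤ σ y * g y z ^ 2 := mul_nonneg (hσ y hy) (sq_nonneg _)
      nlinarith
    -- the six bounds
    have t1 : (avg A fun x => avg B fun y => (i1 (σ y) k * (p x y / √(σ y))) ^ 2) ≤
        ((4 : ℝ) ^ k)⁻¹ * qk k := by
      rw [avg_comm, ← avg_mul_left]
      refine avg_mono fun y hy => (g12 y hy).trans ?_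
      have h4 := i1_lower (σ y) k
      have h6 := hP0 y hy
      rw [inv_mul_eq_div, le_div_iff₀ hk]
      nlinarith [mul_le_mul_of_nonneg_left h4 h6]
    have t2 : (avg A fun x => avg C fun z => (i1 (hh B σ g z / e) K * Kx x z) ^ 2) ≤ gK K := by
      rw [avg_comm]
      refine avg_mono fun z _ => ?_
      rw [avg_congr fun x _ => f13 x z, avg_mul_left]
    have t3 : (avg B fun y => avg C fun z =>
        (i1 (σ y) k * i1 (hh B σ g z / e) K * (√(σ y) * g y z)) ^ 2) ≤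
        min 1 (4 * (4 : ℝ) ^ k * ((4 : ℝ) ^ K)⁻¹) * bK K := by
      have e1 : (avg B fun y => avg C fun z =>
          (i1 (σ y) k * i1 (hh B σ g z / e) K * (√(σ y) * g y z)) ^ 2) =
          avg C fun z => i1 (hh B σ g z / e) K * avg B fun y => i1 (σ y) k * (σ y * g y z ^ 2) := by
        rw [avg_comm]
        refine avg_congr fun z _ => ?_
        rw [avg_congr fun y hy => f23 y hy z, avg_mul_left]
      rw [e1]
      rcases min_choice (1 : ℝ) (4 * (4 : ℝ) ^ k * ((4 : ℝ) ^ K)⁻¹) with hm | hm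
      · rw [hm, one_mul]
        exact avg_mono fun z _ => mul_le_mul_of_nonneg_left (g23' z) (i1_nonneg _ _)
      · rw [hm, ← avg_mul_left]
        refine avg_mono fun z hz => ?_
        have h4 := i1_lower (hh B σ g z / e) K
        have h7 := i1_nonneg (hh B σ g z / e) K
        have h8 : i1 (hh B σ g z / e) K * e ≤
            ((4 : ℝ) ^ K)⁻¹ * (i1 (hh B σ g z / e) K * hh B σ g z) := by
          rw [inv_mul_eq_div, le_div_iff₀ hK]
          have h9 : i1 (hh B σ g z / e) K * (hh B σ g z / e) * e =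
              i1 (hh B σ g z / e) K * hh B σ g z := by field_simp
          rw [← h9]
          nlinarith
        calc i1 (hh B σ g z / e) K * (avg B fun y => i1 (σ y) k * (σ y * g y z ^ 2)) ≤
              i1 (hh B σ g z / e) K * (4 * (4 : ℝ) ^ k * e) :=
              mul_le_mul_of_nonneg_left (g23 z hz) h7
          _ = 4 * (4 : ℝ) ^ k * (i1 (hh B σ g z / e) K * e) := by ring
          _ ≤ 4 * (4 : ℝ) ^ k * (((4 : ℝ) ^ K)⁻¹ * (i1 (hh B σ g z / e) K * hh B σ g z)) :=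
              mul_le_mul_of_nonneg_left h8 (by positivity)
          _ = 4 * (4 : ℝ) ^ k * ((4 : ℝ) ^ K)⁻¹ * (i1 (hh B σ g z / e) K * hh B σ g z) := by ring
    have t4 : (avg A fun x => (avg B fun y => (i1 (σ y) k * (p x y / √(σ y))) ^ 2) *
        avg C fun z => (i1 (hh B σ g z / e) K * Kx x z) ^ 2) ≤ vv k K := by
      refine avg_mono fun x _ => le_of_eq ?_
      rw [avg_congr fun y hy => f12 x y hy, avg_congr fun z _ => f13 x z]
    have t5 : (avg B fun y => (avg A fun x => (i1 (σ y) k * (p x y / √(σ y))) ^ 2) *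
        avg C fun z => (i1 (σ y) k * i1 (hh B σ g z / e) K * (√(σ y) * g y z)) ^ 2) ≤ ww k K := by
      refine avg_mono fun y hy => ?_
      have e1 : (avg C fun z => (i1 (σ y) k * i1 (hh B σ g z / e) K * (√(σ y) * g y z)) ^ 2) =
          i1 (σ y) k * σ y * avg C fun z => i1 (hh B σ g z / e) K * g y z ^ 2 := by
        rw [← avg_mul_left]
        refine avg_congr fun z _ => ?_
        rw [f23 y hy z]; ring
      rw [e1]
      have h7 : 0 ≤ avg C fun z => i1 (hh B σ g z / e) K * g y z ^ 2 :=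
        avg_nonneg fun z _ => mul_nonneg (i1_nonneg _ _) (sq_nonneg _)
      have h8 : 0 ≤ i1 (σ y) k * σ y * avg C fun z => i1 (hh B σ g z / e) K * g y z ^ 2 :=
        mul_nonneg (mul_nonneg (i1_nonneg _ _) (hσ y hy)) h7
      refine (mul_le_mul_of_nonneg_right (g12 y hy) h8).trans (le_of_eq ?_)
      calc i1 (σ y) k * P y * (i1 (σ y) k * σ y *
            avg C fun z => i1 (hh B σ g z / e) K * g y z ^ 2) =
            i1 (σ y) k ^ 2 * (P y * σ y) *
              avg C fun z => i1 (hh B σ g z / e) K * g y z ^ 2 := by ring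
        _ = _ := by rw [i1_sq]
    have t6 : (avg C fun z => (avg A fun x => (i1 (hh B σ g z / e) K * Kx x z) ^ 2) *
        avg B fun y => (i1 (σ y) k * i1 (hh B σ g z / e) K * (√(σ y) * g y z)) ^ 2) ≤
        min (4 * (4 : ℝ) ^ k) (4 * (4 : ℝ) ^ K) * (e * gK K) := by
      show _ ≤ min (4 * (4 : ℝ) ^ k) (4 * (4 : ℝ) ^ K) * (e * avg C fun z =>
        i1 (hh B σ g z / e) K * avg A fun x => Kx x z ^ 2)
      rw [← avg_mul_left, ← avg_mul_left]
      refine avg_mono fun z hz => ?_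
      have h7 := i1_nonneg (hh B σ g z / e) K
      have e1 : (avg B fun y =>
          (i1 (σ y) k * i1 (hh B σ g z / e) K * (√(σ y) * g y z)) ^ 2) =
          i1 (hh B σ g z / e) K * avg B fun y => i1 (σ y) k * (σ y * g y z ^ 2) := by
        rw [avg_congr fun y hy => f23 y hy z, avg_mul_left]
      rw [avg_congr fun x _ => f13 x z, avg_mul_left, e1]
      have h8 : i1 (hh B σ g z / e) K * (avg B fun y => i1 (σ y) k * (σ y * g y z ^ 2)) ≤
          min (4 * (4 : ℝ) ^ k) (4 * (4 : ℝ) ^ K) * e := by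
        have hle1 := i1_le_one (hh B σ g z / e) K
        rcases min_choice (4 * (4 : ℝ) ^ k) (4 * (4 : ℝ) ^ K) with hm | hm
        · rw [hm]
          calc i1 (hh B σ g z / e) K * (avg B fun y => i1 (σ y) k * (σ y * g y z ^ 2)) ≤
                1 * (4 * (4 : ℝ) ^ k * e) := by
                refine mul_le_mul hle1 (g23 z hz) ?_ zero_le_one
                exact avg_nonneg fun y hy => mul_nonneg (i1_nonneg _ _)
                  (mul_nonneg (hσ y hy) (sq_nonneg _))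
            _ = _ := one_mul _
        · rw [hm]
          have h4 := i1_upper (hh B σ g z / e) K
          have h9 : i1 (hh B σ g z / e) K * (hh B σ g z / e) * e =
              i1 (hh B σ g z / e) K * hh B σ g z := by field_simp
          calc i1 (hh B σ g z / e) K * (avg B fun y => i1 (σ y) k * (σ y * g y z ^ 2)) ≤
                i1 (hh B σ g z / e) K * hh B σ g z := mul_le_mul_of_nonneg_left (g23' z) h7
            _ = i1 (hh B σ g z / e) K * (hh B σ g z / e) * e := h9.symm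
            _ ≤ i1 (hh B σ g z / e) K * (4 * (4 : ℝ) ^ K) * e :=
                mul_le_mul_of_nonneg_right h4 he.le
            _ ≤ 1 * (4 * (4 : ℝ) ^ K) * e := by gcongr
            _ = 4 * (4 : ℝ) ^ K * e := by ring
      have h10 : 0 ≤ avg A fun x => Kx x z ^ 2 := avg_nonneg fun x _ => sq_nonneg _
      calc i1 (hh B σ g z / e) K * (avg A fun x => Kx x z ^ 2) *
            (i1 (hh B σ g z / e) K * avg B fun y => i1 (σ y) k * (σ y * g y z ^ 2)) ≤
            i1 (hh B σ g z / e) K * (avg A fun x => Kx x z ^ 2) *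
              (min (4 * (4 : ℝ) ^ k) (4 * (4 : ℝ) ^ K) * e) :=
            mul_le_mul_of_nonneg_left h8 (mul_nonneg h7 h10)
        _ = _ := by ring
    have ht := unifG_test (u := (fun r => i1 (σ r.2) k * (p r.1 r.2 / √(σ r.2)),
      fun r => i1 (hh B σ g r.2 / e) K * Kx r.1 r.2,
      fun r => i1 (σ r.1) k * i1 (hh B σ g r.2 / e) K * (√(σ r.1) * g r.1 r.2))) hd hA hB hC hU
      t1 t2 t3 t4 t5 t6
    refine ht.trans (mul_le_mul_of_nonneg_left ?_ hd)
    have hgeo := geo_le k K (a := min 1 (4 * (4 : ℝ) ^ k * ((4 : ℝ) ^ K)⁻¹))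
      (b := min (4 * (4 : ℝ) ^ k) (4 * (4 : ℝ) ^ K)) (min_le_left _ _) (min_le_right _ _)
      (le_min (by positivity) (by positivity)) (min_le_left _ _) (min_le_right _ _)
    have hmin0 : 0 ≤ min 1 (4 * (4 : ℝ) ^ k * ((4 : ℝ) ^ K)⁻¹) :=
      le_min zero_le_one (by positivity)
    have hmin1 : 0 ≤ min (4 * (4 : ℝ) ^ k) (4 * (4 : ℝ) ^ K) :=
      le_min (by positivity) (by positivity)
    have hprod : 0 ≤ qk k * (e * bK K) * gK K * gK K * vv k K * ww k K := by
      have := hq0 k; have := hb0 K; have := hg0 K; have := hv0 k K; have := hw0 k K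
      positivity
    refine Real.rpow_le_rpow ?_ ?_ (by norm_num)
    · have := hq0 k; have := hb0 K; have := hg0 K; have := hv0 k K; have := hw0 k K
      positivity
    · calc ((4 : ℝ) ^ k)⁻¹ * qk k * gK K *
            (min 1 (4 * (4 : ℝ) ^ k * ((4 : ℝ) ^ K)⁻¹) * bK K) * vv k K * ww k K *
            (min (4 * (4 : ℝ) ^ k) (4 * (4 : ℝ) ^ K) * (e * gK K)) =
            (((4 : ℝ) ^ k)⁻¹ * min 1 (4 * (4 : ℝ) ^ k * ((4 : ℝ) ^ K)⁻¹) *
              min (4 * (4 : ℝ) ^ k) (4 * (4 : ℝ) ^ K)) *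
              (qk k * (e * bK K) * gK K * gK K * vv k K * ww k K) := by ring
        _ ≤ lam k K ^ 4 * (qk k * (e * bK K) * gK K * gK K * vv k K * ww k K) :=
            mul_le_mul_of_nonneg_right hgeo hprod
  -- the sums over the levels
  have sqk : ∑ k ∈ S, qk k ≤ avg B fun y => P y * σ y := by
    show ∑ k ∈ S, (avg B fun y => i1 (σ y) k * (P y * σ y)) ≤ _
    rw [sum_avg]
    refine avg_mono fun y hy => ?_
    rw [← sum_mul]
    have h4 := i1_sum_le (σ y) S
    have h5 := mul_nonneg (hP0 y hy) (hσ y hy)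
    nlinarith
  have sg : ∑ K ∈ T, gK K ≤ avg A fun x => avg C fun z => Kx x z ^ 2 := by
    show ∑ K ∈ T, (avg C fun z => i1 (hh B σ g z / e) K * avg A fun x => Kx x z ^ 2) ≤ _
    rw [sum_avg, avg_comm A C]
    refine avg_mono fun z _ => ?_
    rw [← sum_mul]
    have h4 := i1_sum_le (hh B σ g z / e) T
    have h5 : 0 ≤ avg A fun x => Kx x z ^ 2 := avg_nonneg fun x _ => sq_nonneg _
    nlinarith
  have sb : ∑ K ∈ T, e * bK K ≤ e ^ 2 * avg B σ := by
    rw [← mul_sum, pow_two, mul_assoc]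
    refine mul_le_mul_of_nonneg_left ?_ he.le
    show ∑ K ∈ T, (avg C fun z => i1 (hh B σ g z / e) K * hh B σ g z) ≤ _
    rw [sum_avg]
    have h6 : (avg C fun z => ∑ K ∈ T, i1 (hh B σ g z / e) K * hh B σ g z) ≤
        avg C fun z => hh B σ g z := by
      refine avg_mono fun z _ => ?_
      rw [← sum_mul]
      have h4 := i1_sum_le (hh B σ g z / e) T
      have h5 := hH0 z
      nlinarith
    refine h6.trans ?_
    unfold hh
    rw [avg_comm, ← avg_mul_left]
    refine avg_mono fun y hy => ?_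
    rw [avg_mul_left, mul_comm e]
    exact mul_le_mul_of_nonneg_left (h3 y hy) (hσ y hy)
  have sv : ∑ k ∈ S, ∑ K ∈ T, vv k K ≤ R * avg A fun x => avg C fun z => Kx x z ^ 2 := by
    have e1 : ∑ k ∈ S, ∑ K ∈ T, vv k K = avg A fun x =>
        (avg B fun y => (∑ k ∈ S, i1 (σ y) k) * (p x y ^ 2 / σ y)) *
        avg C fun z => (∑ K ∈ T, i1 (hh B σ g z / e) K) * Kx x z ^ 2 := by
      have e2 : ∀ k, ∑ K ∈ T, vv k K = avg A fun x => ∑ K ∈ T,
          (avg B fun y => i1 (σ y) k * (p x y ^ 2 / σ y)) *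
          avg C fun z => i1 (hh B σ g z / e) K * Kx x z ^ 2 := fun k => sum_avg _ _ _
      simp only [e2]
      rw [sum_avg]
      refine avg_congr fun x _ => ?_
      rw [← sum_mul_sum, sum_avg, sum_avg]
      simp only [sum_mul]
    rw [e1, ← avg_mul_left]
    refine avg_mono fun x hx => ?_
    have h5 : (avg B fun y => (∑ k ∈ S, i1 (σ y) k) * (p x y ^ 2 / σ y)) ≤ R := by
      refine (avg_mono fun y hy => ?_).trans (hR x hx)
      have h4 := i1_sum_le (σ y) S
      have h6 := hpσ x hx y hy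
      have h7 := hpσ' x hx y hy
      nlinarith
    have h8 : (avg C fun z => (∑ K ∈ T, i1 (hh B σ g z / e) K) * Kx x z ^ 2) ≤
        avg C fun z => Kx x z ^ 2 := by
      refine avg_mono fun z _ => ?_
      have h4 := i1_sum_le (hh B σ g z / e) T
      have h5 := sq_nonneg (Kx x z)
      nlinarith
    have h9 : 0 ≤ avg C fun z => (∑ K ∈ T, i1 (hh B σ g z / e) K) * Kx x z ^ 2 :=
      avg_nonneg fun z _ => mul_nonneg (sum_nonneg fun K _ => i1_nonneg _ _) (sq_nonneg _)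
    have h10 : 0 ≤ R := (avg_nonneg fun y hy => hs0 x hx y hy).trans (hR x hx)
    exact mul_le_mul h5 h8 h9 h10
  have sw : ∑ k ∈ S, ∑ K ∈ T, ww k K ≤ e * avg B fun y => P y * σ y := by
    have e1 : ∑ k ∈ S, ∑ K ∈ T, ww k K = avg B fun y =>
        ((∑ k ∈ S, i1 (σ y) k) * (P y * σ y)) *
        avg C fun z => (∑ K ∈ T, i1 (hh B σ g z / e) K) * g y z ^ 2 := by
      have e2 : ∀ k, ∑ K ∈ T, ww k K = avg B fun y => ∑ K ∈ T, (i1 (σ y) k * (P y * σ y)) *
          avg C fun z => i1 (hh B σ g z / e) K * g y z ^ 2 := fun k => sum_avg _ _ _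
      simp only [e2]
      rw [sum_avg]
      refine avg_congr fun y _ => ?_
      rw [← sum_mul_sum, sum_avg, ← sum_mul]
      simp only [sum_mul]
    rw [e1, ← avg_mul_left]
    refine avg_mono fun y hy => ?_
    have h4 := i1_sum_le (σ y) S
    have h5 := mul_nonneg (hP0 y hy) (hσ y hy)
    have h5' : (∑ k ∈ S, i1 (σ y) k) * (P y * σ y) ≤ P y * σ y := by nlinarith
    have h8 : (avg C fun z => (∑ K ∈ T, i1 (hh B σ g z / e) K) * g y z ^ 2) ≤ e := by
      refine (avg_mono fun z _ => ?_).trans (h3 y hy)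
      have h4 := i1_sum_le (hh B σ g z / e) T
      have h5 := sq_nonneg (g y z)
      nlinarith
    have h9 : 0 ≤ avg C fun z => (∑ K ∈ T, i1 (hh B σ g z / e) K) * g y z ^ 2 :=
      avg_nonneg fun z _ => mul_nonneg (sum_nonneg fun K _ => i1_nonneg _ _) (sq_nonneg _)
    rw [mul_comm e]
    exact mul_le_mul h5' h8 h9 h5
  -- the sum
  have hsplit : (avg A fun x => avg B fun y => avg C fun z =>
      G (x, y, z) * (p x y * Kx x z * g y z)) = ∑ k ∈ S, ∑ K ∈ T,
      avg A fun x => avg B fun y => avg C fun z => G (x, y, z) *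
      ((i1 (σ y) k * (p x y / √(σ y))) * (i1 (hh B σ g z / e) K * Kx x z) *
      (i1 (σ y) k * i1 (hh B σ g z / e) K * (√(σ y) * g y z))) := by
    have e2 : ∀ k, (∑ K ∈ T, avg A fun x => avg B fun y => avg C fun z => G (x, y, z) *
        ((i1 (σ y) k * (p x y / √(σ y))) * (i1 (hh B σ g z / e) K * Kx x z) *
        (i1 (σ y) k * i1 (hh B σ g z / e) K * (√(σ y) * g y z)))) =
        avg A fun x => avg B fun y => avg C fun z => ∑ K ∈ T, G (x, y, z) *
        ((i1 (σ y) k * (p x y / √(σ y))) * (i1 (hh B σ g z / e) K * Kx x z) *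
        (i1 (σ y) k * i1 (hh B σ g z / e) K * (√(σ y) * g y z))) := by
      intro k
      rw [sum_avg]
      refine avg_congr fun x _ => ?_
      rw [sum_avg]
      refine avg_congr fun y _ => ?_
      rw [sum_avg]
    simp only [e2]
    rw [sum_avg]
    refine avg_congr fun x hx => ?_
    rw [sum_avg]
    refine avg_congr fun y hy => ?_
    rw [sum_avg]
    refine avg_congr fun z hz => ?_
    rw [split_levels he hσ hs hS hT hx hy hz, mul_sum]
    refine sum_congr rfl fun k _ => ?_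
    rw [mul_sum]
  rw [hsplit]
  refine (abs_sum_le_sum_abs _ _).trans ?_
  have hle : ∀ k ∈ S, |∑ K ∈ T, avg A fun x => avg B fun y => avg C fun z => G (x, y, z) *
      ((i1 (σ y) k * (p x y / √(σ y))) * (i1 (hh B σ g z / e) K * Kx x z) *
      (i1 (σ y) k * i1 (hh B σ g z / e) K * (√(σ y) * g y z)))| ≤ ∑ K ∈ T,
      d * (lam k K ^ 4 * (qk k * (e * bK K) * gK K * gK K * vv k K * ww k K)) ^ (1 / 6 : ℝ) :=
    fun k _ => (abs_sum_le_sum_abs _ _).trans (sum_le_sum fun K _ => hone k K)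
  refine (sum_le_sum hle).trans ?_
  have hcs := class_sum S T (q := qk) (b := fun K => e * bK K) (g := gK) (v := vv) (w := ww)
    hq0 (fun K => mul_nonneg he.le (hb0 K)) hg0 hv0 hw0 sqk sb sg sv sw
  simp only [← mul_sum]
  rw [mul_comm 6 d, mul_assoc]
  exact mul_le_mul_of_nonneg_left hcs hd

end row

section gram

variable {κ : Type*} [Fintype κ] {A B C : Finset ℤ} {G : ℤ × ℤ × ℤ → ℝ} {d e R : ℝ} {P : ℤ → ℝ}

/-- square length of the vector at `(x, y)` -/
def su (u : κ → ℤ → ℤ → ℝ) (x y : ℤ) : ℝ := ∑ l, u l x y ^ 2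

/-- inner product of the vectors at `(x, y)` and `(c, y)` -/
def ip (u : κ → ℤ → ℤ → ℝ) (c x y : ℤ) : ℝ := ∑ l, u l x y * u l c y

/-- the Gram form of the slices -/
def kf (B : Finset ℤ) (u : κ → ℤ → ℤ → ℝ) (G : ℤ × ℤ × ℤ → ℝ) (c x z : ℤ) : ℝ :=
  avg B fun y => ip u c x y * (G (x, y, z) * G (c, y, z))

/-- energy of the row `c` -/
def rf (B : Finset ℤ) (u : κ → ℤ → ℤ → ℝ) (c : ℤ) : ℝ := avg B fun y => su u c y

/-- energy of the row `c` against the column norms -/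
def qf (B : Finset ℤ) (P : ℤ → ℝ) (u : κ → ℤ → ℤ → ℝ) (c : ℤ) : ℝ := avg B fun y => P y * su u c y

theorem su_nonneg (u : κ → ℤ → ℤ → ℝ) (x y : ℤ) : 0 ≤ su u x y :=
  sum_nonneg fun _ _ => sq_nonneg _

theorem rf_nonneg (B : Finset ℤ) (u : κ → ℤ → ℤ → ℝ) (c : ℤ) : 0 ≤ rf B u c :=
  avg_nonneg fun y _ => su_nonneg u c y

theorem qf_nonneg (hP0 : ∀ y ∈ B, 0 ≤ P y) (u : κ → ℤ → ℤ → ℝ) (c : ℤ) : 0 ≤ qf B P u c :=
  avg_nonneg fun y hy => mul_nonneg (hP0 y hy) (su_nonneg u c y)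

theorem ip_sq_le (u : κ → ℤ → ℤ → ℝ) (c x y : ℤ) : ip u c x y ^ 2 ≤ su u x y * su u c y :=
  sum_mul_sq_le_sq_mul_sq univ (fun l => u l x y) fun l => u l c y

theorem kf_eq (u : κ → ℤ → ℤ → ℝ) (x c z : ℤ) :
    ∑ l, g2 B (sl (u l) G z) x c = kf B u G c x z := by
  unfold g2 kf
  rw [sum_avg]
  refine avg_congr fun y _ => ?_
  unfold ip sl
  rw [sum_mul]
  refine sum_congr rfl fun l _ => ?_
  ring

/-- **one row of the Gram form** -/
theorem gram_row (hd : 0 ≤ d) (he : 0 < e) (hA : A.Nonempty) (hB : B.Nonempty) (hC : C.Nonempty)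
    (hU : UnifG d A B C G) (hL : LineB e A B C G) (u : κ → ℤ → ℤ → ℝ) (hP0 : ∀ y ∈ B, 0 ≤ P y)
    (hP : ∀ y ∈ B, ∀ v : κ → ℝ, (avg A fun x => (∑ l, u l x y * v l) ^ 2) ≤ P y * ∑ l, v l ^ 2)
    (hR : ∀ x ∈ A, rf B u x ≤ R) {c : ℤ} (hc : c ∈ A) :
    (avg A fun x => avg C fun z => kf B u G c x z ^ 2) ≤
      36 * d ^ 2 * e * (R * qf B P u c ^ 2 * rf B u c) ^ (1 / 3 : ℝ) := by
  set γ : ℝ := avg A fun x => avg C fun z => kf B u G c x z ^ 2 with hγ
  have h0 := one_row (s := su u) (p := ip u c) (σ := su u c) (P := P) (g := fun y z => G (c, y, z))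
    (Kx := kf B u G c) (R := R) hd he hA hB hC hU (fun y _ => su_nonneg u c y) hP0
    (fun y hy => hP y hy fun l => u l c y) (fun x _ y _ => su_nonneg u x y)
    (fun x _ y _ => ip_sq_le u c x y) hR (fun z hz => hL.l2 c hc z hz) fun y hy => hL.l3 c hc y hy
  have e1 : (avg A fun x => avg B fun y => avg C fun z =>
      G (x, y, z) * (ip u c x y * kf B u G c x z * G (c, y, z))) = γ := by
    rw [hγ]
    refine avg_congr fun x _ => ?_
    rw [avg_comm]
    refine avg_congr fun z _ => ?_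
    rw [pow_two]
    conv_rhs => rw [show kf B u G c x z * kf B u G c x z = kf B u G c x z *
      avg B fun y => ip u c x y * (G (x, y, z) * G (c, y, z)) from rfl]
    rw [← avg_mul_left]
    exact avg_congr fun y _ => by ring
  rw [e1, ← hγ] at h0
  have hq0 := qf_nonneg hP0 u c
  have hr0 := rf_nonneg B u c
  have hR0 : 0 ≤ R := (rf_nonneg B u c).trans (hR c hc)
  have hγ0 : 0 ≤ γ := avg_nonneg fun x _ => avg_nonneg fun z _ => sq_nonneg _
  have h1 : γ ≤ 6 * d * (qf B P u c * (e ^ 2 * rf B u c) * γ * γ * (R * γ) *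
      (e * qf B P u c)) ^ (1 / 6 : ℝ) := (le_abs_self _).trans h0
  have hZ : 0 ≤ R * qf B P u c ^ 2 * rf B u c := by positivity
  have hrhs : 0 ≤ 36 * d ^ 2 * e * (R * qf B P u c ^ 2 * rf B u c) ^ (1 / 3 : ℝ) := by
    have := Real.rpow_nonneg hZ (1 / 3 : ℝ)
    positivity
  rcases hγ0.eq_or_lt with h2 | h2
  · rw [← h2]; exact hrhs
  have h3 : γ ^ 6 ≤ (36 * d ^ 2 * e) ^ 3 * (R * qf B P u c ^ 2 * rf B u c) * γ ^ 3 := by
    refine (pow_le_pow_left₀ hγ0 h1 6).trans (le_of_eq ?_)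
    rw [mul_pow, ← Real.rpow_natCast (_ ^ (1 / 6 : ℝ)) 6, ← Real.rpow_mul (by positivity)]
    norm_num
    ring
  have h4 : γ ^ 3 ≤ (36 * d ^ 2 * e) ^ 3 * (R * qf B P u c ^ 2 * rf B u c) := by
    have h5 : 0 < γ ^ 3 := by positivity
    refine le_of_mul_le_mul_right ?_ h5
    calc γ ^ 3 * γ ^ 3 = γ ^ 6 := by ring
      _ ≤ _ := h3
  refine (pow_le_pow_iff_left₀ hγ0 hrhs (by norm_num : (3 : ℕ) ≠ 0)).1 ?_
  rw [mul_pow, ← Real.rpow_natCast (_ ^ (1 / 3 : ℝ)) 3, ← Real.rpow_mul hZ]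
  norm_num
  exact h4

/-- the fourth moment is the average of the rows -/
theorem mo4v_rows (u : κ → ℤ → ℤ → ℝ) : mo4v A B C u G =
    avg A fun c => avg A fun x => avg C fun z => kf B u G c x z ^ 2 := by
  unfold mo4v
  rw [avg_congr fun z _ => avg_congr fun x _ => avg_congr fun c _ => by rw [kf_eq]]
  rw [avg_comm C A, avg_congr fun x _ => avg_comm C A _, avg_comm A A]

/-- **the fourth Schatten moment of a vector valued gauge, weight `W_g`** -/
theorem mo4v_G (hd : 0 ≤ d) (he : 0 < e) (hA : A.Nonempty) (hB : B.Nonempty) (hC : C.Nonempty)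
    (hU : UnifG d A B C G) (hL : LineB e A B C G) (u : κ → ℤ → ℤ → ℝ) (hP0 : ∀ y ∈ B, 0 ≤ P y)
    (hP : ∀ y ∈ B, ∀ v : κ → ℝ, (avg A fun x => (∑ l, u l x y * v l) ^ 2) ≤ P y * ∑ l, v l ^ 2)
    (hR : ∀ x ∈ A, rf B u x ≤ R) :
    mo4v A B C u G ≤ 36 * d ^ 2 * e *
      avg A fun c => (R * qf B P u c ^ 2 * rf B u c) ^ (1 / 3 : ℝ) := by
  rw [mo4v_rows, ← avg_mul_left]
  exact avg_mono fun c hc => gram_row hd he hA hB hC hU hL u hP0 hP hR hc

/-- with the maximum of the column norms -/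
theorem mo4v_G_sup (hd : 0 ≤ d) (he : 0 < e) (hA : A.Nonempty) (hB : B.Nonempty)
    (hC : C.Nonempty) (hU : UnifG d A B C G) (hL : LineB e A B C G) (u : κ → ℤ → ℤ → ℝ) {p : ℝ}
    (hp : 0 ≤ p)
    (hP : ∀ y ∈ B, ∀ v : κ → ℝ, (avg A fun x => (∑ l, u l x y * v l) ^ 2) ≤ p * ∑ l, v l ^ 2)
    (hR : ∀ x ∈ A, rf B u x ≤ R) :
    mo4v A B C u G ≤ 36 * d ^ 2 * e * (R * p ^ 2) ^ (1 / 3 : ℝ) *
      avg A fun x => avg B fun y => su u x y := by
  refine (mo4v_G (P := fun _ => p) hd he hA hB hC hU hL u (fun _ _ => hp) hP hR).trans ?_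
  rw [mul_assoc (36 * d ^ 2 * e)]
  refine mul_le_mul_of_nonneg_left ?_ (by positivity)
  rw [← avg_mul_left]
  refine avg_mono fun c hc => ?_
  have hr0 := rf_nonneg B u c
  have hR0 : 0 ≤ R := hr0.trans (hR c hc)
  have e1 : R * qf B (fun _ => p) u c ^ 2 * rf B u c = (R * p ^ 2) * rf B u c ^ 3 := by
    have : qf B (fun _ => p) u c = p * rf B u c := avg_mul_left _ _ _
    rw [this]; ring
  rw [e1, Real.mul_rpow (by positivity) (by positivity), ← Real.rpow_natCast (rf B u c) 3,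
    ← Real.rpow_mul hr0]
  norm_num
  exact le_of_eq rfl

/-- **one label** -/
theorem mo4_G (hd : 0 ≤ d) (he : 0 < e) (hA : A.Nonempty) (hB : B.Nonempty) (hC : C.Nonempty)
    (hU : UnifG d A B C G) (hL : LineB e A B C G) (a : ℤ → ℤ → ℝ)
    (hR : ∀ x ∈ A, (avg B fun y => a x y ^ 2) ≤ R) :
    mo4 A B C a G ≤ 36 * d ^ 2 * e * avg A fun c =>
      (R * (avg B fun y => (avg A fun x => a x y ^ 2) * a c y ^ 2) ^ 2 *
        avg B fun y => a c y ^ 2) ^ (1 / 3 : ℝ) := by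
  have h := mo4v_G (κ := Unit) (P := fun y => avg A fun x => a x y ^ 2) (R := R) hd he hA hB hC hU
    hL (fun _ => a) (fun y _ => avg_nonneg fun x _ => sq_nonneg _) (fun y _ v => by
      simp only [univ_unique, PUnit.default_eq_unit, sum_singleton]
      rw [← avg_mul_right]
      exact avg_mono fun x _ => le_of_eq (by ring)) (by simpa [rf, su] using hR)
  simpa [mo4v, mo4, rf, qf, su] using h

/-- the moment with labels on the first vertex is the other one after the exchange -/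
theorem mo4t_swap (A B C : Finset ℤ) (u : κ → ℤ → ℤ → ℝ) (G : ℤ × ℤ × ℤ → ℝ) :
    mo4t A B C u G = mo4v B A C (fun l y x => u l x y) fun q => G (q.2.1, q.1, q.2.2) := rfl

theorem lineB_213 (hL : LineB e A B C G) : LineB e B A C fun q => G (q.2.1, q.1, q.2.2) :=
  ⟨fun x hx z hz => hL.l2 x hx z hz, fun y hy z hz => hL.l1 y hy z hz,
    fun y hy x hx => hL.l3 x hx y hy⟩

/-- **labels on the first vertex** -/
theorem mo4t_G (hd : 0 ≤ d) (he : 0 < e) (hA : A.Nonempty) (hB : B.Nonempty) (hC : C.Nonempty)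
    (hU : UnifG d A B C G) (hL : LineB e A B C G) (u : κ → ℤ → ℤ → ℝ) (hP0 : ∀ x ∈ A, 0 ≤ P x)
    (hP : ∀ x ∈ A, ∀ v : κ → ℝ, (avg B fun y => (∑ l, u l x y * v l) ^ 2) ≤ P x * ∑ l, v l ^ 2)
    (hR : ∀ y ∈ B, (avg A fun x => su u x y) ≤ R) :
    mo4t A B C u G ≤ 36 * d ^ 2 * e * avg B fun c =>
      (R * (avg A fun x => P x * su u x c) ^ 2 * avg A fun x => su u x c) ^ (1 / 3 : ℝ) :=
  mo4v_G hd he hB hA hC (unifG_213 hU) (lineB_213 hL) (fun l y x => u l x y) hP0 hP hR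

/-- labels on the first vertex, with the maximum of the row norms -/
theorem mo4t_G_sup (hd : 0 ≤ d) (he : 0 < e) (hA : A.Nonempty) (hB : B.Nonempty)
    (hC : C.Nonempty) (hU : UnifG d A B C G) (hL : LineB e A B C G) (u : κ → ℤ → ℤ → ℝ) {p : ℝ}
    (hp : 0 ≤ p)
    (hP : ∀ x ∈ A, ∀ v : κ → ℝ, (avg B fun y => (∑ l, u l x y * v l) ^ 2) ≤ p * ∑ l, v l ^ 2)
    (hR : ∀ y ∈ B, (avg A fun x => su u x y) ≤ R) :
    mo4t A B C u G ≤ 36 * d ^ 2 * e * (R * p ^ 2) ^ (1 / 3 : ℝ) *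
      avg A fun x => avg B fun y => su u x y := by
  rw [avg_comm A B]
  exact mo4v_G_sup hd he hB hA hC (unifG_213 hU) (lineB_213 hL) (fun l y x => u l x y) hp hP hR

end gram

end

end Vale.Agent.P141.H438
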